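import Mathlib

open MeasureTheory

namespace Vale.Agent.P074B

/-- The quadratic Wasserstein distance, as a real number: the infimum over all couplings `π` of
`μ` and `ν` of the square root of the integral of `|y - z| ^ 2`. -/
noncomputable def wass {d : ℕ} (μ ν : Measure (EuclideanSpace ℝ (Fin d))) : ℝ :=
  sInf {r : ℝ | ∃ π : Measure (EuclideanSpace ℝ (Fin d) × EuclideanSpace ℝ (Fin d)),
    π.fst = μ ∧ π.snd = ν ∧ r = Real.sqrt (∫ z, ‖z.1 - z.2‖ ^ 2 ∂π)}

/-- `T` is a quadratic optimal transport map from the probability measure `ρ` to `μ`: a Borel map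
with `T_# ρ = μ` which minimizes `∫ |x - T x| ^ 2 dρ` among all Borel maps with this property. -/
def IsOptimal {d : ℕ} (ρ μ : Measure (EuclideanSpace ℝ (Fin d)))
    (T : EuclideanSpace ℝ (Fin d) → EuclideanSpace ℝ (Fin d)) : Prop :=
  MeasurePreserving T ρ μ ∧
    ∀ S : EuclideanSpace ℝ (Fin d) → EuclideanSpace ℝ (Fin d), MeasurePreserving S ρ μ →
      ∫ x, ‖x - T x‖ ^ 2 ∂ρ ≤ ∫ x, ‖x - S x‖ ^ 2 ∂ρ

/-- `α` is an exponent of stability in dimension `d`: for the uniform probability measure `ρ` on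
any compact convex set `K` with nonempty interior (`ρ` is Lebesgue measure conditioned on `K`) and
any nonempty compact set `Y` there is a constant `C` with
`‖T_μ - T_ν‖_{L²(ρ)} ≤ C W₂(μ, ν) ^ α` for all Borel probability measures `μ, ν` on `Y`. -/
def Stable (d : ℕ) (α : ℝ) : Prop :=
  0 < α ∧ α ≤ 1 ∧
    ∀ K Y : Set (EuclideanSpace ℝ (Fin d)), IsCompact K → Convex ℝ K → (interior K).Nonempty →
      IsCompact Y → Y.Nonempty → ∃ C : ℝ, ∀ μ ν : Measure (EuclideanSpace ℝ (Fin d)),
        IsProbabilityMeasure μ → IsProbabilityMeasure ν → μ Y = 1 → ν Y = 1 →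
          ∀ T S : EuclideanSpace ℝ (Fin d) → EuclideanSpace ℝ (Fin d),
            IsOptimal (ProbabilityTheory.cond volume K) μ T →
            IsOptimal (ProbabilityTheory.cond volume K) ν S →
              Real.sqrt (∫ x, ‖T x - S x‖ ^ 2 ∂(ProbabilityTheory.cond volume K)) ≤
                C * wass μ ν ^ α

end Vale.Agent.P074B
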