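import Vale.Agent.Lib.P074B.Defs
import Vale.Agent.Lib.P074.Defs
import Vale.Agent.Lib.P074.Upper
import Vale.Agent.Lib.P074.Lower

open MeasureTheory Set
open scoped ENNReal NNReal

namespace Vale.Agent.P074B

abbrev V (d : ℕ) : Type := EuclideanSpace ℝ (Fin d)

variable {d : ℕ}

section basic

variable {Ω : Type*} [MeasurableSpace Ω] {m : Measure Ω} [IsFiniteMeasure m] {f : Ω → V d} {R : ℝ}

theorem sq_integrable (hf : Measurable f) (h : ∀ᵐ x ∂m, ‖f x‖ ≤ R) :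
    Integrable (fun x => ‖f x‖ ^ 2) m := by
  refine Integrable.of_bound (hf.norm.pow_const 2).aestronglyMeasurable (R ^ 2) ?_
  filter_upwards [h] with x hx
  rw [Real.norm_of_nonneg (by positivity)]
  exact pow_le_pow_left₀ (norm_nonneg _) hx 2

theorem lint_eq (hf : Measurable f) (h : ∀ᵐ x ∂m, ‖f x‖ ≤ R) :
    ∫⁻ x, ENNReal.ofReal (‖f x‖ ^ 2) ∂m = ENNReal.ofReal (∫ x, ‖f x‖ ^ 2 ∂m) :=
  (ofReal_integral_eq_lintegral_ofReal (sq_integrable hf h)
    (Filter.Eventually.of_forall fun x => by positivity)).symm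

theorem eLp_eq (hf : Measurable f) (h : ∀ᵐ x ∂m, ‖f x‖ ≤ R) :
    eLpNorm f 2 m = ENNReal.ofReal (Real.sqrt (∫ x, ‖f x‖ ^ 2 ∂m)) := by
  have h1 : MemLp f 2 m := MemLp.of_bound hf.aestronglyMeasurable R h
  rw [MemLp.eLpNorm_eq_integral_rpow_norm (by norm_num) (by norm_num) h1]
  congr 1
  rw [Real.sqrt_eq_rpow]
  norm_num

end basic

theorem edist_sq (x y : V d) : edist x y ^ 2 = ENNReal.ofReal (‖x - y‖ ^ 2) := by
  rw [edist_dist, dist_eq_norm, ENNReal.ofReal_pow (norm_nonneg _)]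

theorem unif_eq (K : Set (V d)) : P074.unif K = ProbabilityTheory.cond volume K := rfl

theorem compl_zero {μ : Measure (V d)} (hμ : IsProbabilityMeasure μ) {Y : Set (V d)}
    (hY : IsCompact Y) (h : μ Y = 1) : μ Yᶜ = 0 := by
  rw [prob_compl_eq_zero_iff hY.measurableSet]; exact h

theorem ae_mem {μ : Measure (V d)} {Y : Set (V d)} (h : μ Yᶜ = 0) : ∀ᵐ y ∂μ, y ∈ Y := h

theorem bound_of_compact {Y : Set (V d)} (hY : IsCompact Y) : ∃ R : ℝ, 0 ≤ R ∧ ∀ y ∈ Y, ‖y‖ ≤ R := by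
  obtain ⟨R, hR⟩ := hY.isBounded.exists_norm_le
  exact ⟨max R 0, le_max_right _ _, fun y hy => (hR y hy).trans (le_max_left _ _)⟩

theorem cond_ae {K : Set (V d)} (hK : IsCompact K) :
    ∀ᵐ x ∂(ProbabilityTheory.cond volume K), x ∈ K := by
  have h1 : ∀ᵐ x ∂(volume.restrict K), x ∈ K := ae_restrict_mem hK.measurableSet
  exact (Measure.smul_absolutelyContinuous (c := (volume K)⁻¹) (μ := volume.restrict K)).ae_le h1

theorem map_ae {ρ μ : Measure (V d)} {T : V d → V d} (hT : MeasurePreserving T ρ μ)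
    {Y : Set (V d)} (h : μ Yᶜ = 0) : ∀ᵐ x ∂ρ, T x ∈ Y :=
  hT.quasiMeasurePreserving.ae h

/-- the cost of an admissible map: extended-real versus real -/
theorem cost_eq {K Y : Set (V d)} (hK : IsCompact K) (hKi : (interior K).Nonempty)
    (hY : IsCompact Y) {μ : Measure (V d)} (h : μ Yᶜ = 0) {T : V d → V d}
    (hT : MeasurePreserving T (ProbabilityTheory.cond volume K) μ) :
    ∫⁻ x, edist x (T x) ^ 2 ∂(ProbabilityTheory.cond volume K) =
      ENNReal.ofReal (∫ x, ‖x - T x‖ ^ 2 ∂(ProbabilityTheory.cond volume K)) := by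
  have hp : IsProbabilityMeasure (ProbabilityTheory.cond volume K : Measure (V d)) :=
    P074.isProbabilityMeasure_unif hK hKi
  obtain ⟨R1, -, hR1⟩ := bound_of_compact hK
  obtain ⟨R2, -, hR2⟩ := bound_of_compact hY
  simp only [edist_sq]
  refine lint_eq (f := fun x => x - T x) (R := R1 + R2) (measurable_id.sub hT.measurable) ?_
  filter_upwards [cond_ae hK, map_ae hT h] with x h1 h2
  exact (norm_sub_le _ _).trans (add_le_add (hR1 _ h1) (hR2 _ h2))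

theorem isOptimal_iff {K Y : Set (V d)} (hK : IsCompact K) (hKi : (interior K).Nonempty)
    (hY : IsCompact Y) {μ : Measure (V d)} (h : μ Yᶜ = 0) {T : V d → V d} :
    IsOptimal (ProbabilityTheory.cond volume K) μ T ↔ P074.IsOTMap (P074.unif K) μ T := by
  rw [unif_eq]
  constructor
  · rintro ⟨hT, hmin⟩
    refine ⟨hT.measurable, hT.map_eq, fun S hS hSm => ?_⟩
    have hS' : MeasurePreserving S (ProbabilityTheory.cond volume K) μ := ⟨hS, hSm⟩
    rw [cost_eq hK hKi hY h hT, cost_eq hK hKi hY h hS']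
    exact ENNReal.ofReal_le_ofReal (hmin S hS')
  · rintro ⟨hT, hTm, hmin⟩
    have hT' : MeasurePreserving T (ProbabilityTheory.cond volume K) μ := ⟨hT, hTm⟩
    refine ⟨hT', fun S hS => ?_⟩
    have h1 := hmin S hS.measurable hS.map_eq
    rw [cost_eq hK hKi hY h hT', cost_eq hK hKi hY h hS] at h1
    exact (ENNReal.ofReal_le_ofReal_iff (integral_nonneg fun x => by positivity)).1 h1

/-- the cost of a coupling -/
theorem coup_eq {Y : Set (V d)} (hY : IsCompact Y) {μ ν : Measure (V d)}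
    (hμp : IsProbabilityMeasure μ) (hμ : μ Yᶜ = 0) (hν : ν Yᶜ = 0) {π : Measure (V d × V d)}
    (h1 : π.fst = μ) (h2 : π.snd = ν) :
    ∫⁻ z, edist z.1 z.2 ^ 2 ∂π = ENNReal.ofReal (∫ z, ‖z.1 - z.2‖ ^ 2 ∂π) ∧
      IsProbabilityMeasure π ∧ ∃ R : ℝ, (∀ y ∈ Y, ‖y‖ ≤ R) ∧ ∀ᵐ z ∂π, z.1 ∈ Y ∧ z.2 ∈ Y := by
  have hp : IsProbabilityMeasure π := by
    constructor
    have : π.fst univ = 1 := by rw [h1]; exact measure_univ
    rwa [Measure.fst_univ] at this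
  obtain ⟨R, -, hR⟩ := bound_of_compact hY
  have a1 : ∀ᵐ z ∂π, z.1 ∈ Y := by
    have : ∀ᵐ y ∂(π.map Prod.fst), y ∈ Y := by
      change ∀ᵐ y ∂π.fst, y ∈ Y
      rw [h1]; exact hμ
    exact ae_of_ae_map measurable_fst.aemeasurable this
  have a2 : ∀ᵐ z ∂π, z.2 ∈ Y := by
    have : ∀ᵐ y ∂(π.map Prod.snd), y ∈ Y := by
      change ∀ᵐ y ∂π.snd, y ∈ Y
      rw [h2]; exact hν
    exact ae_of_ae_map measurable_snd.aemeasurable this
  refine ⟨?_, hp, R, hR, a1.and a2⟩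
  simp only [edist_sq]
  refine lint_eq (f := fun z : V d × V d => z.1 - z.2) (R := R + R)
    (measurable_fst.sub measurable_snd) ?_
  filter_upwards [a1, a2] with z h3 h4
  exact (norm_sub_le _ _).trans (add_le_add (hR _ h3) (hR _ h4))

theorem wass_bdd (μ ν : Measure (V d)) :
    BddBelow {r : ℝ | ∃ π : Measure (V d × V d),
      π.fst = μ ∧ π.snd = ν ∧ r = Real.sqrt (∫ z, ‖z.1 - z.2‖ ^ 2 ∂π)} := by
  refine ⟨0, ?_⟩
  rintro r ⟨π, -, -, rfl⟩
  exact Real.sqrt_nonneg _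

theorem wass_nonempty {μ ν : Measure (V d)} (hμ : IsProbabilityMeasure μ)
    (hν : IsProbabilityMeasure ν) :
    {r : ℝ | ∃ π : Measure (V d × V d),
      π.fst = μ ∧ π.snd = ν ∧ r = Real.sqrt (∫ z, ‖z.1 - z.2‖ ^ 2 ∂π)}.Nonempty :=
  ⟨_, μ.prod ν, Measure.fst_prod, Measure.snd_prod, rfl⟩

theorem wass_nonneg (μ ν : Measure (V d)) : 0 ≤ wass μ ν := by
  apply Real.sInf_nonneg
  rintro r ⟨π, -, -, rfl⟩
  exact Real.sqrt_nonneg _

theorem sqrt_ofReal {t : ℝ} (ht : 0 ≤ t) :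
    ENNReal.ofReal t ^ (1 / 2 : ℝ) = ENNReal.ofReal (Real.sqrt t) := by
  rw [ENNReal.ofReal_rpow_of_nonneg ht (by norm_num), Real.sqrt_eq_rpow]

theorem W2_eq {Y : Set (V d)} (hY : IsCompact Y) {μ ν : Measure (V d)}
    (hμp : IsProbabilityMeasure μ) (hνp : IsProbabilityMeasure ν) (hμ : μ Yᶜ = 0)
    (hν : ν Yᶜ = 0) : P074.W2 μ ν = ENNReal.ofReal (wass μ ν) := by
  apply le_antisymm
  · have key : ∀ r ∈ {r : ℝ | ∃ π : Measure (V d × V d),
        π.fst = μ ∧ π.snd = ν ∧ r = Real.sqrt (∫ z, ‖z.1 - z.2‖ ^ 2 ∂π)},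
        P074.W2 μ ν ≤ ENNReal.ofReal r := by
      rintro r ⟨π, h1, h2, rfl⟩
      rw [P074.W2, ← sqrt_ofReal (integral_nonneg fun z => by positivity),
        ← (coup_eq hY hμp hμ hν h1 h2).1]
      exact ENNReal.rpow_le_rpow (iInf₂_le π ⟨h1, h2⟩) (by norm_num)
    obtain ⟨r0, hr0⟩ := wass_nonempty hμp hνp
    have hfin : P074.W2 μ ν ≠ ∞ := ne_top_of_le_ne_top ENNReal.ofReal_ne_top (key r0 hr0)
    rw [← ENNReal.ofReal_toReal hfin]
    apply ENNReal.ofReal_le_ofReal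
    refine le_csInf ⟨r0, hr0⟩ ?_
    intro r hr
    have hr' : 0 ≤ r := by
      obtain ⟨π, -, -, rfl⟩ := hr
      exact Real.sqrt_nonneg _
    exact ENNReal.toReal_le_of_le_ofReal hr' (key r hr)
  · have h1 : ENNReal.ofReal (wass μ ν) = (ENNReal.ofReal (wass μ ν ^ 2)) ^ (1 / 2 : ℝ) := by
      rw [sqrt_ofReal (by positivity), Real.sqrt_sq (wass_nonneg μ ν)]
    rw [h1, P074.W2]
    apply ENNReal.rpow_le_rpow _ (by norm_num)
    refine le_iInf₂ ?_
    rintro π ⟨h2, h3⟩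
    rw [(coup_eq hY hμp hμ hν h2 h3).1]
    apply ENNReal.ofReal_le_ofReal
    have h4 : wass μ ν ≤ Real.sqrt (∫ z, ‖z.1 - z.2‖ ^ 2 ∂π) :=
      csInf_le (wass_bdd μ ν) ⟨π, h2, h3, rfl⟩
    have h5 : 0 ≤ ∫ z, ‖z.1 - z.2‖ ^ 2 ∂π := integral_nonneg fun z => by positivity
    calc wass μ ν ^ 2 ≤ Real.sqrt (∫ z, ‖z.1 - z.2‖ ^ 2 ∂π) ^ 2 :=
          pow_le_pow_left₀ (wass_nonneg μ ν) h4 2
      _ = _ := Real.sq_sqrt h5

theorem diff_eq {K Y : Set (V d)} (hK : IsCompact K) (hKi : (interior K).Nonempty)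
    (hY : IsCompact Y) {μ ν : Measure (V d)} (hμ : μ Yᶜ = 0) (hν : ν Yᶜ = 0) {T S : V d → V d}
    (hT : MeasurePreserving T (ProbabilityTheory.cond volume K) μ)
    (hS : MeasurePreserving S (ProbabilityTheory.cond volume K) ν) :
    eLpNorm (fun x => T x - S x) 2 (P074.unif K) =
      ENNReal.ofReal (Real.sqrt (∫ x, ‖T x - S x‖ ^ 2 ∂(ProbabilityTheory.cond volume K))) := by
  have hp : IsProbabilityMeasure (ProbabilityTheory.cond volume K : Measure (V d)) :=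
    P074.isProbabilityMeasure_unif hK hKi
  obtain ⟨R2, -, hR2⟩ := bound_of_compact hY
  rw [unif_eq]
  refine eLp_eq (R := R2 + R2) (hT.measurable.sub hS.measurable) ?_
  filter_upwards [map_ae hT hμ, map_ae hS hν] with x h1 h2
  exact (norm_sub_le _ _).trans (add_le_add (hR2 _ h1) (hR2 _ h2))

theorem stable_iff {α : ℝ} : Stable d α ↔ P074.Admissible d α := by
  constructor
  · rintro ⟨h0, h1, h⟩
    refine ⟨h0, h1, fun K hK hKc hKi Y hYn hY => ?_⟩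
    obtain ⟨C, hC⟩ := h K Y hK hKc hKi hY hYn
    refine ⟨C.toNNReal, ?_⟩
    rintro μ ν ⟨hμp, hμ⟩ ⟨hνp, hν⟩ T S hT hS
    have hT' := (isOptimal_iff hK hKi hY hμ).2 hT
    have hS' := (isOptimal_iff hK hKi hY hν).2 hS
    have hμ1 : μ Y = 1 := (prob_compl_eq_zero_iff hY.measurableSet).1 hμ
    have hν1 : ν Y = 1 := (prob_compl_eq_zero_iff hY.measurableSet).1 hν
    have := hC μ ν hμp hνp hμ1 hν1 T S hT' hS'
    rw [diff_eq hK hKi hY hμ hν hT'.1 hS'.1, W2_eq hY hμp hνp hμ hν,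
      ENNReal.ofReal_rpow_of_nonneg (wass_nonneg μ ν) h0.le]
    refine (ENNReal.ofReal_le_ofReal this).trans ?_
    rw [ENNReal.ofReal_mul' (Real.rpow_nonneg (wass_nonneg μ ν) _)]
    exact le_rfl
  · rintro ⟨h0, h1, h⟩
    refine ⟨h0, h1, fun K Y hK hKc hKi hY hYn => ?_⟩
    obtain ⟨C, hC⟩ := h K hK hKc hKi Y hYn hY
    refine ⟨C, ?_⟩
    intro μ ν hμp hνp hμ1 hν1 T S hT hS
    have hμ := compl_zero hμp hY hμ1
    have hν := compl_zero hνp hY hν1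
    have := hC μ ν ⟨hμp, hμ⟩ ⟨hνp, hν⟩ T S ((isOptimal_iff hK hKi hY hμ).1 hT)
      ((isOptimal_iff hK hKi hY hν).1 hS)
    rw [diff_eq hK hKi hY hμ hν hT.1 hS.1, W2_eq hY hμp hνp hμ hν,
      ENNReal.ofReal_rpow_of_nonneg (wass_nonneg μ ν) h0.le, ← ENNReal.ofReal_coe_nnreal,
      ← ENNReal.ofReal_mul C.coe_nonneg] at this
    exact (ENNReal.ofReal_le_ofReal_iff (mul_nonneg C.coe_nonneg
      (Real.rpow_nonneg (wass_nonneg μ ν) _))).1 this

theorem wass_le {Y : Set (V d)} (hY : IsCompact Y) : ∃ D : ℝ, 0 ≤ D ∧ ∀ μ ν : Measure (V d),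
    IsProbabilityMeasure μ → IsProbabilityMeasure ν → μ Y = 1 → ν Y = 1 → wass μ ν ≤ D := by
  obtain ⟨R, hR0, hR⟩ := bound_of_compact hY
  refine ⟨R + R, by positivity, ?_⟩
  intro μ ν hμp hνp hμ1 hν1
  have hμ := compl_zero hμp hY hμ1
  have hν := compl_zero hνp hY hν1
  refine (csInf_le (wass_bdd μ ν) ⟨μ.prod ν, Measure.fst_prod, Measure.snd_prod, rfl⟩).trans ?_
  obtain ⟨-, hp, R', -, hae⟩ := coup_eq hY hμp hμ hν (π := μ.prod ν) Measure.fst_prod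
    Measure.snd_prod
  have hb : ∀ᵐ z ∂(μ.prod ν), ‖z.1 - z.2‖ ≤ R + R := by
    filter_upwards [hae] with z hz
    exact (norm_sub_le _ _).trans (add_le_add (hR _ hz.1) (hR _ hz.2))
  have hi : ∫ z, ‖z.1 - z.2‖ ^ 2 ∂(μ.prod ν) ≤ (R + R) ^ 2 := by
    have h3 : ∫ z, ‖z.1 - z.2‖ ^ 2 ∂(μ.prod ν) ≤ ∫ _z, (R + R) ^ 2 ∂(μ.prod ν) := by
      apply integral_mono_ae
      · exact sq_integrable (f := fun z : V d × V d => z.1 - z.2)
          (measurable_fst.sub measurable_snd) hb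
      · exact integrable_const _
      · filter_upwards [hb] with z hz
        exact pow_le_pow_left₀ (norm_nonneg _) hz 2
    rw [integral_const, probReal_univ, one_smul] at h3
    exact h3
  calc Real.sqrt (∫ z, ‖z.1 - z.2‖ ^ 2 ∂(μ.prod ν)) ≤ Real.sqrt ((R + R) ^ 2) :=
        Real.sqrt_le_sqrt hi
    _ = R + R := Real.sqrt_sq (by positivity)

theorem stable_mono {α β : ℝ} (hα : 0 < α) (hαβ : α ≤ β) (h : Stable d β) : Stable d α := by
  obtain ⟨-, h1, h⟩ := h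
  refine ⟨hα, hαβ.trans h1, fun K Y hK hKc hKi hY hYn => ?_⟩
  obtain ⟨C, hC⟩ := h K Y hK hKc hKi hY hYn
  obtain ⟨D, hD0, hD⟩ := wass_le hY
  refine ⟨|C| * D ^ (β - α), ?_⟩
  intro μ ν hμp hνp hμ1 hν1 T S hT hS
  refine (hC μ ν hμp hνp hμ1 hν1 T S hT hS).trans ?_
  have hw := hD μ ν hμp hνp hμ1 hν1
  have hw0 := wass_nonneg μ ν
  have e : wass μ ν ^ β = wass μ ν ^ (β - α) * wass μ ν ^ α := by
    rw [← Real.rpow_add_of_nonneg hw0 (by linarith) hα.le]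
    congr 1
    ring
  rw [e, mul_assoc]
  refine mul_le_mul (le_abs_self C) ?_ (by positivity) (abs_nonneg C)
  exact mul_le_mul_of_nonneg_right (Real.rpow_le_rpow hw0 hw (by linarith))
    (Real.rpow_nonneg hw0 _)

theorem stable_char (hd : 2 ≤ d) (α : ℝ) : Stable d α ↔ 0 < α ∧ α ≤ 1 / 3 := by
  constructor
  · intro h
    refine ⟨h.1, ?_⟩
    by_contra hlt
    push Not at hlt
    exact P074.not_admissible_of_gt hd hlt (stable_iff.1 h)
  · rintro ⟨h0, h1⟩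
    exact stable_mono h0 h1 (stable_iff.2 (P074.admissible_third (le_trans one_le_two hd)))

end Vale.Agent.P074B
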